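import Mathlib

/-!
# Gaussian first moments of measurable sets: reduction to a one-dimensional inequality
-/

open MeasureTheory ProbabilityTheory
open scoped RealInnerProductSpace

namespace Vale.Agent.Lib.P226

/-- `KappaBound κ`: for all `r > 0`, `r * E (g - r)_+ ≤ κ` for a standard real Gaussian `g`. -/
def KappaBound (κ : ℝ) : Prop :=
  ∀ r : ℝ, 0 < r → r * ∫ y, max (y - r) 0 ∂(gaussianReal 0 1) ≤ κ

lemma integrable_max_sub (v : NNReal) (r : ℝ) :
    Integrable (fun y : ℝ => max (y - r) 0) (gaussianReal 0 v) := by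
  have h1 : Integrable (fun y : ℝ => y) (gaussianReal 0 v) := by
    have h0 := (memLp_id_gaussianReal (μ := 0) (v := v) 1)
    have h0' : MemLp (id : ℝ → ℝ) 1 (gaussianReal 0 v) := by simpa using h0
    exact memLp_one_iff_integrable.1 h0'
  have h2 : Integrable (fun y : ℝ => y - r) (gaussianReal 0 v) := h1.sub (integrable_const r)
  exact h2.sup (integrable_const 0)

/-- scaling of the one-dimensional inequality -/
lemma scaled_bound {κ : ℝ} (hκ : KappaBound κ) {σ τ : ℝ} (hσ : 0 < σ) (hτ : 0 < τ) :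
    ∫ y, max (y - τ) 0 ∂(gaussianReal 0 (NNReal.mk (σ ^ 2) (sq_nonneg σ))) ≤ κ * σ ^ 2 / τ := by
  have hmap : Measure.map (fun x => σ * x) (gaussianReal 0 1)
      = gaussianReal 0 (NNReal.mk (σ ^ 2) (sq_nonneg σ)) := by
    rw [gaussianReal_map_const_mul]
    simp
  rw [← hmap, integral_map (by fun_prop) (by fun_prop)]
  have hpt : ∀ x : ℝ, max (σ * x - τ) 0 = σ * max (x - τ / σ) 0 := by
    intro x
    rw [mul_max_of_nonneg _ _ hσ.le]
    congr 1
    · field_simp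
    · simp
  simp_rw [hpt]
  rw [integral_const_mul]
  have h := hκ (τ / σ) (by positivity)
  have h2 : ∫ y, max (y - τ / σ) 0 ∂(gaussianReal 0 1) ≤ κ / (τ / σ) := by
    rw [le_div_iff₀ (by positivity)]
    linarith
  calc σ * ∫ y, max (y - τ / σ) 0 ∂(gaussianReal 0 1) ≤ σ * (κ / (τ / σ)) :=
        mul_le_mul_of_nonneg_left h2 hσ.le
    _ = κ * σ ^ 2 / τ := by field_simp

variable {E : Type*} [NormedAddCommGroup E] [InnerProductSpace ℝ E] [FiniteDimensional ℝ E]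
  [MeasurableSpace E] [BorelSpace E]

lemma map_inner_stdGaussian (z : E) :
    Measure.map (fun x : E => ⟪z, x⟫) (stdGaussian E)
      = gaussianReal 0 (NNReal.mk (‖z‖ ^ 2) (sq_nonneg _)) := by
  have h := IsGaussian.map_eq_gaussianReal (μ := stdGaussian E) (innerSL ℝ z)
  rw [integral_strongDual_stdGaussian, variance_dual_stdGaussian, innerSL_apply_norm] at h
  have h3 : (‖z‖ ^ 2).toNNReal = (NNReal.mk (‖z‖ ^ 2) (sq_nonneg _)) := by
    ext
    simp
  rw [h3] at h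
  exact h

/-- single-cell inequality: `|z(A)|^2 ≤ 4 κ γ(A)` -/
lemma norm_sq_moment_le {κ : ℝ} (hκ : KappaBound κ) (hκ0 : 0 < κ) {A : Set E}
    (hA : MeasurableSet A) :
    ‖∫ x in A, x ∂(stdGaussian E)‖ ^ 2 ≤ 4 * κ * (stdGaussian E).real A := by
  set γ := stdGaussian E with hγ
  set z := ∫ x in A, x ∂γ with hz
  by_cases hz0 : z = 0
  · rw [hz0]
    simp only [norm_zero, ne_eq, OfNat.ofNat_ne_zero, not_false_eq_true, zero_pow]
    positivity
  have hσ : 0 < ‖z‖ := norm_pos_iff.2 hz0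
  have hint : Integrable (fun x : E => x) γ := IsGaussian.integrable_id
  have hintL : Integrable (fun x : E => ⟪z, x⟫) γ := hint.const_inner z
  have h1 : ‖z‖ ^ 2 = ∫ x in A, ⟪z, x⟫ ∂γ := by
    rw [integral_inner hint.integrableOn z, ← hz, real_inner_self_eq_norm_sq]
  set τ : ℝ := 2 * κ with hτ
  have hτ0 : 0 < τ := by positivity
  have hintP : Integrable (fun x : E => max (⟪z, x⟫ - τ) 0) γ :=
    (hintL.sub (integrable_const τ)).sup (integrable_const 0)
  have h2 : ∫ x in A, ⟪z, x⟫ ∂γ ≤ ∫ x in A, (τ + max (⟪z, x⟫ - τ) 0) ∂γ := by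
    apply setIntegral_mono_on hintL.integrableOn
      ((integrable_const τ).add hintP).integrableOn hA
    intro x _
    have := le_max_left (⟪z, x⟫ - τ) 0
    show ⟪z, x⟫ ≤ τ + max (⟪z, x⟫ - τ) 0
    linarith
  have h3 : ∫ x in A, (τ + max (⟪z, x⟫ - τ) 0) ∂γ
      = τ * γ.real A + ∫ x in A, max (⟪z, x⟫ - τ) 0 ∂γ := by
    rw [integral_add (integrable_const τ).integrableOn hintP.integrableOn]
    simp [mul_comm]
  have h4 : ∫ x in A, max (⟪z, x⟫ - τ) 0 ∂γ ≤ ∫ x, max (⟪z, x⟫ - τ) 0 ∂γ :=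
    setIntegral_le_integral hintP (Filter.Eventually.of_forall fun x => le_max_right _ _)
  have h5 : ∫ x, max (⟪z, x⟫ - τ) 0 ∂γ
      = ∫ y, max (y - τ) 0 ∂(gaussianReal 0 (NNReal.mk (‖z‖ ^ 2) (sq_nonneg _))) := by
    rw [← map_inner_stdGaussian z, integral_map (by fun_prop) (by fun_prop)]
  have h6 := scaled_bound hκ hσ hτ0
  have h7 : κ * ‖z‖ ^ 2 / τ = ‖z‖ ^ 2 / 2 := by
    rw [hτ]; field_simp
  have : ‖z‖ ^ 2 ≤ τ * γ.real A + ‖z‖ ^ 2 / 2 := by
    calc ‖z‖ ^ 2 = ∫ x in A, ⟪z, x⟫ ∂γ := h1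
      _ ≤ τ * γ.real A + ∫ x in A, max (⟪z, x⟫ - τ) 0 ∂γ := by rw [← h3]; exact h2
      _ ≤ τ * γ.real A + ‖z‖ ^ 2 / 2 := by
        rw [← h7]
        have := h4.trans (h5.le.trans h6)
        linarith
  rw [hτ] at this
  linarith

/-- sum over pairwise disjoint cells -/
theorem sum_norm_sq_moment_le {κ : ℝ} (hκ : KappaBound κ) (hκ0 : 0 < κ) {k : ℕ}
    (A : Fin k → Set E) (hA : ∀ i, MeasurableSet (A i))
    (hdisj : Pairwise (Function.onFun Disjoint A)) :
    ∑ i, ‖∫ x in A i, x ∂(stdGaussian E)‖ ^ 2 ≤ 4 * κ := by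
  calc ∑ i, ‖∫ x in A i, x ∂(stdGaussian E)‖ ^ 2
      ≤ ∑ i, 4 * κ * (stdGaussian E).real (A i) :=
        Finset.sum_le_sum fun i _ => norm_sq_moment_le hκ hκ0 (hA i)
    _ = 4 * κ * ∑ i, (stdGaussian E).real (A i) := by rw [Finset.mul_sum]
    _ = 4 * κ * (stdGaussian E).real (⋃ i, A i) := by
        rw [measureReal_iUnion_fintype hdisj hA]
    _ ≤ 4 * κ * 1 := by
        apply mul_le_mul_of_nonneg_left _ (by positivity)
        exact measureReal_le_one
    _ = 4 * κ := by ring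

end Vale.Agent.Lib.P226
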