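import Vale.Agent.Lib.P226.Basic

open MeasureTheory ProbabilityTheory

namespace Vale.Agent.Lib.P226

lemma integrable_sq_gaussian : Integrable (fun y : ℝ => y ^ 2) (gaussianReal 0 1) := by
  have h0 := (memLp_id_gaussianReal (μ := 0) (v := 1) 2)
  have h0' : MemLp (id : ℝ → ℝ) 2 (gaussianReal 0 1) := by simpa using h0
  simpa using h0'.integrable_sq

lemma integral_sq_gaussian : ∫ y : ℝ, y ^ 2 ∂(gaussianReal 0 1) = 1 := by
  have h := variance_id_gaussianReal (μ := 0) (v := 1)
  rw [variance_eq_integral (by fun_prop)] at h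
  simpa using h

lemma integrable_posPart_sq : Integrable (fun y : ℝ => (max y 0) ^ 2) (gaussianReal 0 1) := by
  refine integrable_sq_gaussian.mono' (by fun_prop) (Filter.Eventually.of_forall fun y => ?_)
  rw [Real.norm_of_nonneg (by positivity)]
  rcases le_total y 0 with h | h
  · rw [max_eq_right h]; simp [sq_nonneg]
  · rw [max_eq_left h]

lemma integral_posPart_sq : ∫ y : ℝ, (max y 0) ^ 2 ∂(gaussianReal 0 1) = 1 / 2 := by
  have hneg : ∫ y : ℝ, (max (-y) 0) ^ 2 ∂(gaussianReal 0 1)
      = ∫ y : ℝ, (max y 0) ^ 2 ∂(gaussianReal 0 1) := by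
    have hm : Measure.map (fun x : ℝ => -x) (gaussianReal 0 1) = gaussianReal 0 1 := by
      rw [gaussianReal_map_neg]; simp
    conv_rhs => rw [← hm]
    rw [integral_map (by fun_prop) (by fun_prop)]
  have hint2 : Integrable (fun y : ℝ => (max (-y) 0) ^ 2) (gaussianReal 0 1) := by
    refine integrable_sq_gaussian.mono' (by fun_prop) (Filter.Eventually.of_forall fun y => ?_)
    rw [Real.norm_of_nonneg (by positivity)]
    rcases le_total (-y) 0 with h | h
    · rw [max_eq_right h]; simp [sq_nonneg]
    · rw [max_eq_left h]; simp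
  have hsum : ∫ y : ℝ, ((max y 0) ^ 2 + (max (-y) 0) ^ 2) ∂(gaussianReal 0 1) = 1 := by
    rw [← integral_sq_gaussian]
    congr 1
    ext y
    rcases le_total y 0 with h | h
    · rw [max_eq_right h, max_eq_left (by linarith)]; ring
    · rw [max_eq_left h, max_eq_right (by linarith)]; ring
  rw [integral_add integrable_posPart_sq hint2, hneg] at hsum
  linarith

theorem kappaBound_eighth : KappaBound (1 / 8) := by
  intro r hr
  rw [← integral_const_mul]
  have h : ∫ y : ℝ, r * max (y - r) 0 ∂(gaussianReal 0 1)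
      ≤ ∫ y : ℝ, (1 / 4) * (max y 0) ^ 2 ∂(gaussianReal 0 1) := by
    apply integral_mono ((integrable_max_sub 1 r).const_mul r)
      (integrable_posPart_sq.const_mul _)
    intro y
    show r * max (y - r) 0 ≤ (1 / 4) * (max y 0) ^ 2
    rcases le_total (y - r) 0 with h | h
    · rw [max_eq_right h]
      have : 0 ≤ (max y 0) ^ 2 := sq_nonneg _
      linarith
    · rw [max_eq_left h, max_eq_left (by linarith)]
      nlinarith [sq_nonneg (y - 2 * r)]
  rw [integral_const_mul (1 / 4 : ℝ), integral_posPart_sq] at h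
  linarith

end Vale.Agent.Lib.P226
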