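import Vale.Agent.Lib.P226.Basic

/-!
# The one-dimensional inequality `r * E (g - r)_+ ≤ 41/400`

We use the Mills-ratio type lower bound with the rational function
`L(x) = (10x^2+21x+22)/(10x^3+22x^2+31x+18)`.
-/

open MeasureTheory ProbabilityTheory Set Filter
open scoped Topology

namespace Vale.Agent.Lib.P226

noncomputable def Pn (x : ℝ) : ℝ := 10 * x ^ 2 + 21 * x + 22
noncomputable def Qn (x : ℝ) : ℝ := 10 * x ^ 3 + 22 * x ^ 2 + 31 * x + 18
noncomputable def En (x : ℝ) : ℝ :=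
  20 + 112 * x - 119 * x ^ 2 - 11 * x ^ 3 + 12 * x ^ 4 + 10 * x ^ 5
noncomputable def Hf (r y : ℝ) : ℝ := (1 - r * (Pn y / Qn y)) * Real.exp (-(y ^ 2) / 2)

lemma Qn_pos {x : ℝ} (hx : 0 ≤ x) : 0 < Qn x := by
  unfold Qn; positivity

lemma Pn_pos {x : ℝ} (hx : 0 ≤ x) : 0 < Pn x := by
  unfold Pn; positivity

lemma En_nonneg {x : ℝ} (hx : 0 ≤ x) : 0 ≤ En x := by
  have h : En x = (x - 4 / 3) ^ 2 * (283 / 27 + 223 / 3 * x + 116 / 3 * x ^ 2 + 10 * x ^ 3)
      + (332 / 243 + 632 / 81 * x) := by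
    unfold En; ring
  rw [h]; positivity

lemma hasDerivAt_Hf (r : ℝ) {y : ℝ} (hy : 0 ≤ y) :
    HasDerivAt (Hf r)
      (-(((y - r) + r * (En y / (Qn y) ^ 2)) * Real.exp (-(y ^ 2) / 2))) y := by
  have hQ0 : Qn y ≠ 0 := (Qn_pos hy).ne'
  have hP : HasDerivAt Pn (20 * y + 21) y := by
    have h2 : HasDerivAt (fun x : ℝ => 10 * x ^ 2 + 21 * x + 22) (10 * (2 * y) + 21) y := by
      have := ((((hasDerivAt_id' y).fun_pow 2).const_mul 10).fun_add
        ((hasDerivAt_id' y).const_mul 21)).add_const 22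
      simpa using this
    exact h2.congr_deriv (by ring)
  have hQ : HasDerivAt Qn (30 * y ^ 2 + 44 * y + 31) y := by
    have h2 : HasDerivAt (fun x : ℝ => 10 * x ^ 3 + 22 * x ^ 2 + 31 * x + 18)
        (10 * (3 * y ^ 2) + 22 * (2 * y) + 31) y := by
      have := (((((hasDerivAt_id' y).fun_pow 3).const_mul 10).fun_add
        (((hasDerivAt_id' y).fun_pow 2).const_mul 22)).fun_add
        ((hasDerivAt_id' y).const_mul 31)).add_const 18
      simpa using this
    exact h2.congr_deriv (by ring)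
  have hdiv : HasDerivAt (fun x => Pn x / Qn x)
      (((20 * y + 21) * Qn y - Pn y * (30 * y ^ 2 + 44 * y + 31)) / Qn y ^ 2) y :=
    hP.fun_div hQ hQ0
  have hexp : HasDerivAt (fun y : ℝ => Real.exp (-(y ^ 2) / 2))
      (Real.exp (-(y ^ 2) / 2) * (-y)) y := by
    have h1 : HasDerivAt (fun y : ℝ => -(y ^ 2) / 2) (-y) y := by
      have := (((hasDerivAt_id' y).fun_pow 2).fun_neg).div_const 2
      have h2 : HasDerivAt (fun x : ℝ => -(x ^ 2) / 2) (-(2 * y) / 2) y := by simpa using this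
      exact h2.congr_deriv (by ring)
    exact h1.exp
  have hmain : HasDerivAt (fun x => (1 - r * (Pn x / Qn x)) * Real.exp (-(x ^ 2) / 2))
      ((0 - r * (((20 * y + 21) * Qn y - Pn y * (30 * y ^ 2 + 44 * y + 31)) / Qn y ^ 2))
        * Real.exp (-(y ^ 2) / 2)
        + (1 - r * (Pn y / Qn y)) * (Real.exp (-(y ^ 2) / 2) * (-y))) y :=
    ((hasDerivAt_const y (1 : ℝ)).fun_sub (hdiv.const_mul r)).fun_mul hexp
  refine hmain.congr_deriv ?_
  have hE : En y = Qn y ^ 2 - y * Pn y * Qn y + (20 * y + 21) * Qn y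
      - Pn y * (30 * y ^ 2 + 44 * y + 31) := by
    unfold En Pn Qn; ring
  rw [hE]
  field_simp
  ring

lemma tendsto_exp_neg_sq : Tendsto (fun y : ℝ => Real.exp (-(y ^ 2) / 2)) atTop (𝓝 0) := by
  apply Real.tendsto_exp_atBot.comp
  have h1 : Tendsto (fun y : ℝ => y ^ 2) atTop atTop := tendsto_pow_atTop (by norm_num)
  have h2 : Tendsto (fun y : ℝ => y ^ 2 / 2) atTop atTop := h1.atTop_div_const (by norm_num)
  have h3 := tendsto_neg_atTop_atBot.comp h2
  refine h3.congr (fun y => ?_)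
  simp [neg_div]

lemma Hf_bounds {r y : ℝ} (hr : 0 < r) (hy : r ≤ y) :
    0 ≤ 1 - r * (Pn y / Qn y) ∧ 1 - r * (Pn y / Qn y) ≤ 1 := by
  have hy0 : 0 ≤ y := hr.le.trans hy
  have hQ := Qn_pos hy0
  have hP := Pn_pos hy0
  have h1 : y * Pn y ≤ Qn y := by
    unfold Pn Qn; nlinarith [sq_nonneg y]
  have h2 : r * Pn y ≤ Qn y := (mul_le_mul_of_nonneg_right hy hP.le).trans h1
  have h3 : r * (Pn y / Qn y) ≤ 1 := by
    rw [← mul_div_assoc, div_le_one hQ]; exact h2
  have h4 : 0 ≤ r * (Pn y / Qn y) := by positivity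
  constructor <;> linarith

lemma tendsto_Hf {r : ℝ} (hr : 0 < r) : Tendsto (Hf r) atTop (𝓝 0) := by
  refine squeeze_zero' ?_ ?_ tendsto_exp_neg_sq
  · filter_upwards [eventually_ge_atTop r] with y hy
    exact mul_nonneg (Hf_bounds hr hy).1 (Real.exp_pos _).le
  · filter_upwards [eventually_ge_atTop r] with y hy
    unfold Hf
    have := (Hf_bounds hr hy).2
    nlinarith [Real.exp_pos (-(y ^ 2) / 2)]

/-- the tail integral bound -/
lemma integral_Ioi_le {r : ℝ} (hr : 0 < r) :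
    IntegrableOn (fun y : ℝ => (y - r) * Real.exp (-(y ^ 2) / 2)) (Ioi r) ∧
    ∫ y in Ioi r, (y - r) * Real.exp (-(y ^ 2) / 2) ≤ Hf r r := by
  set g : ℝ → ℝ := fun y => -(Hf r y) with hg
  set g' : ℝ → ℝ := fun y => ((y - r) + r * (En y / (Qn y) ^ 2)) * Real.exp (-(y ^ 2) / 2)
    with hg'
  have hderiv : ∀ x ∈ Ioi r, HasDerivAt g (g' x) x := by
    intro x hx
    have hx0 : 0 ≤ x := hr.le.trans (le_of_lt hx)
    have := (hasDerivAt_Hf r hx0).fun_neg
    simpa [hg, hg'] using this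
  have hcont : ContinuousWithinAt g (Ici r) r :=
    ((hasDerivAt_Hf r hr.le).fun_neg).continuousAt.continuousWithinAt
  have hextra : ∀ x ∈ Ioi r, 0 ≤ r * (En x / (Qn x) ^ 2) := by
    intro x hx
    have hx0 : 0 ≤ x := hr.le.trans (le_of_lt hx)
    have := En_nonneg hx0
    positivity
  have hpos : ∀ x ∈ Ioi r, 0 ≤ g' x := by
    intro x hx
    have h1 := hextra x hx
    have h2 : 0 ≤ x - r := sub_nonneg.2 (le_of_lt hx)
    exact mul_nonneg (by linarith) (Real.exp_pos _).le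
  have htend : Tendsto g atTop (𝓝 0) := by
    have := (tendsto_Hf hr).neg
    simpa [hg] using this
  have hint : IntegrableOn g' (Ioi r) := integrableOn_Ioi_deriv_of_nonneg hcont hderiv hpos htend
  have hval : ∫ y in Ioi r, g' y = 0 - g r :=
    integral_Ioi_of_hasDerivAt_of_nonneg hcont hderiv hpos htend
  have hle : ∀ x ∈ Ioi r, (x - r) * Real.exp (-(x ^ 2) / 2) ≤ g' x := by
    intro x hx
    have h1 := hextra x hx
    exact mul_le_mul_of_nonneg_right (by linarith) (Real.exp_pos _).le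
  have hint2 : IntegrableOn (fun y : ℝ => (y - r) * Real.exp (-(y ^ 2) / 2)) (Ioi r) := by
    refine Integrable.mono' hint (by fun_prop) ?_
    rw [ae_restrict_iff' measurableSet_Ioi]
    refine Eventually.of_forall fun x hx => ?_
    have h2 : 0 ≤ x - r := sub_nonneg.2 (le_of_lt hx)
    rw [Real.norm_of_nonneg (mul_nonneg h2 (Real.exp_pos _).le)]
    exact hle x hx
  refine ⟨hint2, ?_⟩
  calc ∫ y in Ioi r, (y - r) * Real.exp (-(y ^ 2) / 2) ≤ ∫ y in Ioi r, g' y :=
        setIntegral_mono_on hint2 hint measurableSet_Ioi hle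
    _ = Hf r r := by rw [hval]; simp [hg]

lemma integral_max_eq {r : ℝ} :
    ∫ y, max (y - r) 0 ∂(gaussianReal 0 1)
      = (√(2 * Real.pi))⁻¹ * ∫ y in Ioi r, (y - r) * Real.exp (-(y ^ 2) / 2) := by
  rw [integral_gaussianReal_eq_integral_smul (by norm_num), ← integral_const_mul]
  rw [← setIntegral_eq_integral_of_forall_compl_eq_zero (s := Ioi r)]
  · apply setIntegral_congr_fun measurableSet_Ioi
    intro y hy
    have hy' : 0 ≤ y - r := sub_nonneg.2 (le_of_lt hy)
    simp only [gaussianPDFReal, smul_eq_mul, max_eq_left hy']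
    simp
    ring
  · intro y hy
    have hy' : y - r ≤ 0 := by
      have : y ≤ r := by simpa using hy
      linarith
    simp [max_eq_right hy']

lemma exp_lower (r : ℝ) :
    1 + r ^ 2 / 2 + r ^ 4 / 8 + r ^ 6 / 48 ≤ Real.exp (r ^ 2 / 2) := by
  have h := Real.sum_le_exp_of_nonneg (x := r ^ 2 / 2) (by positivity) 4
  simp only [Finset.sum_range_succ, Finset.sum_range_zero, Nat.factorial] at h
  norm_num at h
  nlinarith [h]

lemma final_poly {r : ℝ} (hr : 0 ≤ r) :
    r * (r ^ 2 + 9 * r + 18)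
      ≤ 2569 / 10000 * (Qn r * (1 + r ^ 2 / 2 + r ^ 4 / 8 + r ^ 6 / 48)) := by
  have h : 2569 / 10000 * (Qn r * (1 + r ^ 2 / 2 + r ^ 4 / 8 + r ^ 6 / 48))
      - r * (r ^ 2 + 9 * r + 18)
      = (r - 76 / 125) ^ 2 * ((35432758290606434069/2861022949218750000)
        + (203716323535954359/15258789062500000) * r
        + (5574970635668707/732421875000000) * r ^ 2 + (9231457498949/2343750000000) * r ^ 3
        + (49179633517/31250000000) * r ^ 4 + (1034359039/1500000000) * r ^ 5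
        + (1096963/6000000) * r ^ 6 + (2569/48000) * r ^ 7)
        + (1029118445614116455603/22351741790771484375000
          + 31591980474882302737/357627868652343750000 * r) := by
    unfold Qn; ring
  have h2 : 0 ≤ 2569 / 10000 * (Qn r * (1 + r ^ 2 / 2 + r ^ 4 / 8 + r ^ 6 / 48))
      - r * (r ^ 2 + 9 * r + 18) := by
    rw [h]; positivity
  linarith

lemma sqrt_two_pi_lower : (2569 / 10000 : ℝ) ≤ 41 / 400 * √(2 * Real.pi) := by
  have h1 : (2.5064 : ℝ) ≤ √(2 * Real.pi) := by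
    apply Real.le_sqrt_of_sq_le
    have := Real.pi_gt_d4
    norm_num at this ⊢
    linarith
  norm_num at h1 ⊢
  linarith

theorem kappaBound_sharp : KappaBound (41 / 400) := by
  intro r hr
  rw [integral_max_eq]
  have h1 := (integral_Ioi_le hr).2
  have hs : 0 < √(2 * Real.pi) := by positivity
  have hQ := Qn_pos hr.le
  -- value of Hf r r
  have h2 : Hf r r = (r ^ 2 + 9 * r + 18) / Qn r * Real.exp (-(r ^ 2) / 2) := by
    unfold Hf
    congr 1
    unfold Pn Qn at *
    field_simp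
    ring
  have h3 : Real.exp (-(r ^ 2) / 2) = (Real.exp (r ^ 2 / 2))⁻¹ := by
    rw [← Real.exp_neg]; congr 1; ring
  set T := 1 + r ^ 2 / 2 + r ^ 4 / 8 + r ^ 6 / 48 with hT
  have hTpos : 0 < T := by positivity
  have h4 : Real.exp (-(r ^ 2) / 2) ≤ T⁻¹ := by
    rw [h3]
    exact inv_anti₀ hTpos (exp_lower r)
  have h5 : r * Hf r r ≤ 41 / 400 * √(2 * Real.pi) := by
    have hp := final_poly hr.le
    have : r * Hf r r ≤ r * ((r ^ 2 + 9 * r + 18) / Qn r * T⁻¹) := by
      rw [h2]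
      apply mul_le_mul_of_nonneg_left _ hr.le
      apply mul_le_mul_of_nonneg_left h4
      positivity
    refine this.trans (le_trans ?_ sqrt_two_pi_lower)
    have : r * ((r ^ 2 + 9 * r + 18) / Qn r * T⁻¹) = r * (r ^ 2 + 9 * r + 18) / (Qn r * T) := by
      field_simp
    rw [this, div_le_iff₀ (by positivity)]
    exact hp
  calc r * ((√(2 * Real.pi))⁻¹ * ∫ y in Ioi r, (y - r) * Real.exp (-(y ^ 2) / 2))
      ≤ r * ((√(2 * Real.pi))⁻¹ * Hf r r) := by
        apply mul_le_mul_of_nonneg_left _ hr.le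
        apply mul_le_mul_of_nonneg_left h1
        positivity
    _ = (√(2 * Real.pi))⁻¹ * (r * Hf r r) := by ring
    _ ≤ (√(2 * Real.pi))⁻¹ * (41 / 400 * √(2 * Real.pi)) := by
        apply mul_le_mul_of_nonneg_left h5
        positivity
    _ = 41 / 400 := by field_simp

end Vale.Agent.Lib.P226
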