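import Vale.Agent.Lib.P226.KappaSharp

/-!
# The sharp constant `9 / (8 π)` for cells of small (or large) Gaussian measure
-/

open MeasureTheory ProbabilityTheory Set
open scoped RealInnerProductSpace

namespace Vale.Agent.Lib.P226

/-- `psi r = E (g - r)_+` for a standard real Gaussian `g`. -/
noncomputable def psi (r : ℝ) : ℝ := ∫ y, max (y - r) 0 ∂(gaussianReal 0 1)

lemma psi_nonneg (r : ℝ) : 0 ≤ psi r :=
  integral_nonneg fun _ => le_max_right _ _

lemma scaled_eq {σ : ℝ} (hσ : 0 < σ) (τ : ℝ) :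
    ∫ y, max (y - τ) 0 ∂(gaussianReal 0 (NNReal.mk (σ ^ 2) (sq_nonneg σ))) = σ * psi (τ / σ) := by
  have hmap : Measure.map (fun x => σ * x) (gaussianReal 0 1)
      = gaussianReal 0 (NNReal.mk (σ ^ 2) (sq_nonneg σ)) := by
    rw [gaussianReal_map_const_mul]
    simp
  rw [← hmap, integral_map (by fun_prop) (by fun_prop)]
  have hpt : ∀ x : ℝ, max (σ * x - τ) 0 = σ * max (x - τ / σ) 0 := by
    intro x
    rw [mul_max_of_nonneg _ _ hσ.le]
    congr 1
    · field_simp
    · simp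
  simp_rw [hpt]
  rw [integral_const_mul]
  rfl

variable {E : Type*} [NormedAddCommGroup E] [InnerProductSpace ℝ E] [FiniteDimensional ℝ E]
  [MeasurableSpace E] [BorelSpace E]

/-- linear bound: `|z(A)| ≤ r γ(A) + E (g - r)_+` for every `r ≥ 0`. -/
lemma norm_moment_le {A : Set E} (hA : MeasurableSet A) {r : ℝ} (hr : 0 ≤ r) :
    ‖∫ x in A, x ∂(stdGaussian E)‖ ≤ r * (stdGaussian E).real A + psi r := by
  set γ := stdGaussian E with hγ
  set z := ∫ x in A, x ∂γ with hz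
  by_cases hz0 : z = 0
  · rw [hz0, norm_zero]
    have := psi_nonneg r
    positivity
  have hσ : 0 < ‖z‖ := norm_pos_iff.2 hz0
  have hint : Integrable (fun x : E => x) γ := IsGaussian.integrable_id
  have hintL : Integrable (fun x : E => ⟪z, x⟫) γ := hint.const_inner z
  have h1 : ‖z‖ ^ 2 = ∫ x in A, ⟪z, x⟫ ∂γ := by
    rw [integral_inner hint.integrableOn z, ← hz, real_inner_self_eq_norm_sq]
  set τ : ℝ := r * ‖z‖ with hτ
  have hintP : Integrable (fun x : E => max (⟪z, x⟫ - τ) 0) γ :=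
    (hintL.sub (integrable_const τ)).sup (integrable_const 0)
  have h2 : ∫ x in A, ⟪z, x⟫ ∂γ ≤ ∫ x in A, (τ + max (⟪z, x⟫ - τ) 0) ∂γ := by
    apply setIntegral_mono_on hintL.integrableOn
      ((integrable_const τ).add hintP).integrableOn hA
    intro x _
    have := le_max_left (⟪z, x⟫ - τ) 0
    show ⟪z, x⟫ ≤ τ + max (⟪z, x⟫ - τ) 0
    linarith
  have h3 : ∫ x in A, (τ + max (⟪z, x⟫ - τ) 0) ∂γ
      = τ * γ.real A + ∫ x in A, max (⟪z, x⟫ - τ) 0 ∂γ := by
    rw [integral_add (integrable_const τ).integrableOn hintP.integrableOn]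
    simp [mul_comm]
  have h4 : ∫ x in A, max (⟪z, x⟫ - τ) 0 ∂γ ≤ ∫ x, max (⟪z, x⟫ - τ) 0 ∂γ :=
    setIntegral_le_integral hintP (Filter.Eventually.of_forall fun x => le_max_right _ _)
  have h5 : ∫ x, max (⟪z, x⟫ - τ) 0 ∂γ
      = ∫ y, max (y - τ) 0 ∂(gaussianReal 0 (NNReal.mk (‖z‖ ^ 2) (sq_nonneg _))) := by
    rw [← map_inner_stdGaussian z, integral_map (by fun_prop) (by fun_prop)]
  have h6 := scaled_eq hσ τ
  have h7 : τ / ‖z‖ = r := by rw [hτ]; field_simp
  rw [h7] at h6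
  have h8 : ‖z‖ ^ 2 ≤ ‖z‖ * (r * γ.real A + psi r) := by
    calc ‖z‖ ^ 2 = ∫ x in A, ⟪z, x⟫ ∂γ := h1
      _ ≤ τ * γ.real A + ∫ x in A, max (⟪z, x⟫ - τ) 0 ∂γ := by rw [← h3]; exact h2
      _ ≤ τ * γ.real A + ‖z‖ * psi r := by
        have := h4.trans (h5.le.trans h6.le)
        linarith
      _ = ‖z‖ * (r * γ.real A + psi r) := by rw [hτ]; ring
  have h9 : ‖z‖ * ‖z‖ ≤ ‖z‖ * (r * γ.real A + psi r) := by
    calc ‖z‖ * ‖z‖ = ‖z‖ ^ 2 := by ring
      _ ≤ _ := h8
  exact le_of_mul_le_mul_left h9 hσ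

/-- explicit upper bound for `psi`. -/
lemma psi_le {r : ℝ} (hr : 0 < r) :
    psi r ≤ (√(2 * Real.pi))⁻¹ * ((r ^ 2 + 9 * r + 18) / Qn r * Real.exp (-(r ^ 2) / 2)) := by
  unfold psi
  rw [integral_max_eq]
  have h1 := (integral_Ioi_le hr).2
  have hQ := Qn_pos hr.le
  have h2 : Hf r r = (r ^ 2 + 9 * r + 18) / Qn r * Real.exp (-(r ^ 2) / 2) := by
    unfold Hf
    congr 1
    unfold Pn Qn at *
    field_simp
    ring
  rw [← h2]
  apply mul_le_mul_of_nonneg_left h1
  positivity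

/-! ### numerical facts -/

lemma sqrt_two_pi_bounds : (250659 / 100000 : ℝ) ≤ √(2 * Real.pi) ∧
    √(2 * Real.pi) ≤ 250664 / 100000 := by
  constructor
  · apply Real.le_sqrt_of_sq_le
    have := Real.pi_gt_d4
    norm_num at this ⊢
    linarith
  · rw [Real.sqrt_le_left (by norm_num)]
    have := Real.pi_lt_d4
    norm_num at this ⊢
    linarith

lemma sqrt_two_pi_sq : √(2 * Real.pi) ^ 2 = 2 * Real.pi :=
  Real.sq_sqrt (by positivity)

lemma cst_eq : 9 / (8 * Real.pi) = 9 / (4 * √(2 * Real.pi) ^ 2) := by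
  rw [sqrt_two_pi_sq]; ring

lemma cst_lower : (35809 / 100000 : ℝ) ≤ 9 / (8 * Real.pi) := by
  have h := Real.pi_lt_d4
  have hp := Real.pi_pos
  rw [le_div_iff₀ (by positivity)]
  norm_num at h ⊢
  linarith

lemma inv_sqrt_two_pi_le : (√(2 * Real.pi))⁻¹ ≤ 100000 / 250659 := by
  have h := sqrt_two_pi_bounds.1
  rw [inv_le_comm₀ (by positivity) (by norm_num)]
  norm_num at h ⊢
  linarith

lemma psi_107 : psi (107 / 100) ≤ 731 / 10000 := by
  have h := psi_le (r := 107 / 100) (by norm_num)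
  have he : Real.exp (-((107 / 100 : ℝ) ^ 2) / 2) ≤ 56415 / 100000 := by
    have h1 := Real.sum_le_exp_of_nonneg (x := (11449 / 20000 : ℝ)) (by norm_num) 7
    simp only [Finset.sum_range_succ, Finset.sum_range_zero, Nat.factorial] at h1
    norm_num at h1
    have h2 : Real.exp (-((107 / 100 : ℝ) ^ 2) / 2) = (Real.exp (11449 / 20000))⁻¹ := by
      rw [← Real.exp_neg]; congr 1; norm_num
    rw [h2, inv_le_comm₀ (Real.exp_pos _) (by norm_num)]
    refine le_trans ?_ h1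
    norm_num
  have hq : ((107 / 100 : ℝ) ^ 2 + 9 * (107 / 100) + 18) / Qn (107 / 100) = 2877490 / 8860823 := by
    unfold Qn; norm_num
  rw [hq] at h
  have hs := inv_sqrt_two_pi_le
  have hs0 : 0 ≤ (√(2 * Real.pi))⁻¹ := by positivity
  calc psi (107 / 100) ≤ (√(2 * Real.pi))⁻¹ *
        (2877490 / 8860823 * Real.exp (-((107 / 100 : ℝ) ^ 2) / 2)) := h
    _ ≤ (100000 / 250659) * (2877490 / 8860823 * (56415 / 100000)) := by
        apply mul_le_mul hs _ (by positivity) (by norm_num)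
        apply mul_le_mul_of_nonneg_left he (by norm_num)
    _ ≤ 731 / 10000 := by norm_num

lemma psi_015 : psi (3 / 20) ≤ 3298 / 10000 := by
  have h := psi_le (r := 3 / 20) (by norm_num)
  have he : Real.exp (-((3 / 20 : ℝ) ^ 2) / 2) ≤ 1 := by
    rw [Real.exp_le_one_iff]; norm_num
  have he' : Real.exp (-((3 / 20 : ℝ) ^ 2) / 2) ≤ 800 / 809 := by
    have h1 := Real.add_one_le_exp (9 / 800 : ℝ)
    have h2 : Real.exp (-((3 / 20 : ℝ) ^ 2) / 2) = (Real.exp (9 / 800))⁻¹ := by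
      rw [← Real.exp_neg]; congr 1; norm_num
    rw [h2, inv_le_comm₀ (Real.exp_pos _) (by norm_num)]
    refine le_trans ?_ h1
    norm_num
  have hq : ((3 / 20 : ℝ) ^ 2 + 9 * (3 / 20) + 18) / Qn (3 / 20) = 154980 / 185430 := by
    unfold Qn; norm_num
  rw [hq] at h
  have hs := inv_sqrt_two_pi_le
  calc psi (3 / 20) ≤ (√(2 * Real.pi))⁻¹ *
        (154980 / 185430 * Real.exp (-((3 / 20 : ℝ) ^ 2) / 2)) := h
    _ ≤ (100000 / 250659) * (154980 / 185430 * (800 / 809)) := by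
        apply mul_le_mul hs _ (by positivity) (by norm_num)
        apply mul_le_mul_of_nonneg_left he' (by norm_num)
    _ ≤ 3298 / 10000 := by norm_num

/-- for `r ≥ 3/2`: `r * psi r ≤ (9 / (8 π)) / 4`. -/
lemma mul_psi_le {r : ℝ} (hr : 3 / 2 ≤ r) : r * psi r ≤ 9 / (8 * Real.pi) / 4 := by
  have hr0 : 0 < r := by linarith
  have h := psi_le hr0
  have hQ := Qn_pos hr0.le
  set s := √(2 * Real.pi) with hs
  have hs0 : 0 < s := by positivity
  have hsb := sqrt_two_pi_bounds.2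
  have h1 : r * ((r ^ 2 + 9 * r + 18) / Qn r) ≤ 1 / 2 := by
    rw [← mul_div_assoc, div_le_iff₀ hQ]
    unfold Qn
    nlinarith [sq_nonneg r, mul_pos hr0 hr0, mul_pos (mul_pos hr0 hr0) hr0]
  have h2 : Real.exp (-(r ^ 2) / 2) ≤ 2 / 5 := by
    have h3 : Real.exp (-(r ^ 2) / 2) ≤ Real.exp (-(9 / 8)) := by
      apply Real.exp_le_exp.2
      nlinarith
    have h4 := Real.quadratic_le_exp_of_nonneg (x := (9 / 8 : ℝ)) (by norm_num)
    have h5 : Real.exp (-(9 / 8 : ℝ)) ≤ 2 / 5 := by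
      rw [Real.exp_neg, inv_le_comm₀ (Real.exp_pos _) (by norm_num)]
      refine le_trans ?_ h4
      norm_num
    exact h3.trans h5
  have h6 : r * psi r ≤ s⁻¹ * (1 / 2 * (2 / 5)) := by
    calc r * psi r ≤ r * (s⁻¹ * ((r ^ 2 + 9 * r + 18) / Qn r * Real.exp (-(r ^ 2) / 2))) :=
          mul_le_mul_of_nonneg_left h hr0.le
      _ = s⁻¹ * ((r * ((r ^ 2 + 9 * r + 18) / Qn r)) * Real.exp (-(r ^ 2) / 2)) := by ring
      _ ≤ s⁻¹ * (1 / 2 * (2 / 5)) := by
          apply mul_le_mul_of_nonneg_left _ (by positivity)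
          apply mul_le_mul h1 h2 (Real.exp_pos _).le (by norm_num)
  rw [cst_eq, ← hs]
  refine h6.trans ?_
  rw [div_div, le_div_iff₀ (by positivity)]
  have : s⁻¹ * (1 / 2 * (2 / 5)) * (4 * s ^ 2 * 4) = 16 / 5 * s := by
    field_simp
    ring
  rw [this]
  linarith

/-- the sharp single-cell inequality. -/
lemma norm_sq_moment_le_sharp {A : Set E} (hA : MeasurableSet A)
    (h : (stdGaussian E).real A ≤ 1 / 7 ∨ 11 / 25 ≤ (stdGaussian E).real A) :
    ‖∫ x in A, x ∂(stdGaussian E)‖ ^ 2 ≤ 9 / (8 * Real.pi) * (stdGaussian E).real A := by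
  set μ := (stdGaussian E).real A with hμ
  set σ := ‖∫ x in A, x ∂(stdGaussian E)‖ with hσ
  set c := 9 / (8 * Real.pi) with hc
  have hc1 : (35809 / 100000 : ℝ) ≤ c := cst_lower
  have hμ0 : 0 ≤ μ := measureReal_nonneg
  have hμ1 : μ ≤ 1 := measureReal_le_one
  have hσ0 : 0 ≤ σ := norm_nonneg _
  rcases h with h | h
  · by_cases hcase : σ ≤ c / 3
    · rcases hσ0.eq_or_lt with h0 | h0
      · rw [← h0]
        have : 0 ≤ c * μ := by positivity
        simpa using this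
      · have hr : 3 / 2 ≤ c / (2 * σ) := by
          rw [le_div_iff₀ (by positivity)]
          linarith
        have hr0 : 0 < c / (2 * σ) := by positivity
        have h1 := norm_moment_le (E := E) hA hr0.le
        have h2 := mul_psi_le hr
        have h3 : psi (c / (2 * σ)) ≤ σ / 2 := by
          have : psi (c / (2 * σ)) ≤ c / 4 / (c / (2 * σ)) := by
            rw [le_div_iff₀ hr0]
            linarith
          have h4 : c / 4 / (c / (2 * σ)) = σ / 2 := by
            have hc0 : c ≠ 0 := by positivity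
            field_simp
            ring
          linarith
        have h5 : σ ≤ c / (2 * σ) * μ + σ / 2 := by linarith
        have h6 : c / (2 * σ) * μ = c * μ / (2 * σ) := by ring
        rw [h6] at h5
        have h7 : σ / 2 ≤ c * μ / (2 * σ) := by linarith
        rw [le_div_iff₀ (by positivity)] at h7
        nlinarith
    · have hcase' : c / 3 < σ := not_le.1 hcase
      have h1 := norm_moment_le (E := E) hA (r := 107 / 100) (by norm_num)
      have h2 := psi_107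
      have h3 : σ ≤ 107 / 100 * μ + 731 / 10000 := by linarith
      have h4 : (432 / 10000 : ℝ) ≤ μ := by linarith
      have h5 : σ ^ 2 ≤ (107 / 100 * μ + 731 / 10000) ^ 2 := by
        apply pow_le_pow_left₀ hσ0 h3
      have h6 : (107 / 100 * μ + 731 / 10000) ^ 2 ≤ 35809 / 100000 * μ := by
        nlinarith [mul_nonneg (sub_nonneg.2 h4) (sub_nonneg.2 h)]
      calc σ ^ 2 ≤ 35809 / 100000 * μ := h5.trans h6
        _ ≤ c * μ := mul_le_mul_of_nonneg_right hc1 hμ0
  · have h1 := norm_moment_le (E := E) hA (r := 3 / 20) (by norm_num)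
    have h2 := psi_015
    have h3 : σ ≤ 3 / 20 * μ + 3298 / 10000 := by linarith
    have h5 : σ ^ 2 ≤ (3 / 20 * μ + 3298 / 10000) ^ 2 := by
      apply pow_le_pow_left₀ hσ0 h3
    have h6 : (3 / 20 * μ + 3298 / 10000) ^ 2 ≤ 35809 / 100000 * μ := by
      nlinarith [mul_nonneg (sub_nonneg.2 h) (sub_nonneg.2 hμ1)]
    calc σ ^ 2 ≤ 35809 / 100000 * μ := h5.trans h6
      _ ≤ c * μ := mul_le_mul_of_nonneg_right hc1 hμ0

/-- sum over pairwise disjoint cells, none of which has measure in `(1/7, 11/25)`. -/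
theorem sum_norm_sq_moment_le_sharp {k : ℕ}
    (A : Fin k → Set E) (hA : ∀ i, MeasurableSet (A i))
    (hdisj : Pairwise (Function.onFun Disjoint A))
    (h : ∀ i, (stdGaussian E).real (A i) ≤ 1 / 7 ∨ 11 / 25 ≤ (stdGaussian E).real (A i)) :
    ∑ i, ‖∫ x in A i, x ∂(stdGaussian E)‖ ^ 2 ≤ 9 / (8 * Real.pi) := by
  have hc : 0 ≤ 9 / (8 * Real.pi) := by positivity
  calc ∑ i, ‖∫ x in A i, x ∂(stdGaussian E)‖ ^ 2
      ≤ ∑ i, 9 / (8 * Real.pi) * (stdGaussian E).real (A i) :=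
        Finset.sum_le_sum fun i _ => norm_sq_moment_le_sharp (hA i) (h i)
    _ = 9 / (8 * Real.pi) * ∑ i, (stdGaussian E).real (A i) := by rw [Finset.mul_sum]
    _ = 9 / (8 * Real.pi) * (stdGaussian E).real (⋃ i, A i) := by
        rw [measureReal_iUnion_fintype hdisj hA]
    _ ≤ 9 / (8 * Real.pi) * 1 := by
        apply mul_le_mul_of_nonneg_left _ hc
        exact measureReal_le_one
    _ = 9 / (8 * Real.pi) := by ring

end Vale.Agent.Lib.P226
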